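import Vale.Agent.P201.S.Defs

/-!
P201, part C over a general system: labels of units and their densities
(port of the labels part of `Z/C/Defs.lean`, helper174; the arcs interface is not needed).
-/

namespace Vale.Agent.P201.S

open Finset

variable {S : Sys}

/-! ## Labels of units -/

/-- labels of units: rows of the two ports, difference of heights -/
abbrev Lbl (S : Sys) : Type := S.R × S.R × ℤ

/-- ordered pair of distinct ports of the same block -/
def IsU (u : Port S × Port S) : Prop := S.blk u.1 = S.blk u.2 ∧ u.1 ≠ u.2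

def lam (u : Port S × Port S) : Lbl S := (S.rc u.1, S.rc u.2, S.ht u.2 - S.ht u.1)

def rev (l : Lbl S) : Lbl S := (l.2.1, l.1, -l.2.2)

open Classical in
/-- number of units with a given label -/
noncomputable def nlab (S : Sys) (l : Lbl S) : ℕ :=
  (univ.filter (fun u : Port S × Port S => IsU u ∧ lam u = l)).card

/-- density of a label: `nlab / #cells` -/
noncomputable def rho (S : Sys) (l : Lbl S) : ℝ :=
  (nlab S l : ℝ) / (Fintype.card S.C : ℝ)

/-- facts on densities (proved from `Ok`) -/
def RhoFacts (S : Sys) (D : ℕ) : Prop :=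
  (∀ L : Finset (Lbl S), ∑ l ∈ L, rho S l ^ 2 ≤ 1 / 2) ∧
  (∀ u : Port S × Port S, IsU u → 1 ≤ (D : ℝ) * rho S (lam u)) ∧
  (∀ l : Lbl S, rho S (rev l) = rho S l)

def StmtRho : Prop := ∀ (S : Sys) (D : ℕ), S.Ok D → 0 < Fintype.card S.C → RhoFacts S D

end Vale.Agent.P201.S
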