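import Vale.Agent.P201.S.C.Defs

/-!
P201, part C: the product measure lemma (helper422).
-/

namespace Vale.Agent.P201.S

open Finset

theorem sum_prod_le_one {ι U : Type*} [Fintype ι] [DecidableEq ι] [Fintype U]
    (w : ι → U → ℝ) (h0 : ∀ i u, 0 ≤ w i u) (h1 : ∀ i, ∑ u, w i u ≤ 1) :
    ∑ f : ι → U, ∏ i, w i (f i) ≤ 1 := by
  have h : ∏ i, ∑ u, w i u = ∑ f : ι → U, ∏ i, w i (f i) := by
    rw [Finset.prod_univ_sum, Fintype.piFinset_univ]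
  rw [← h]
  exact Finset.prod_le_one (fun i _ => Finset.sum_nonneg fun u _ => h0 i u) (fun i _ => h1 i)

/-- four layers: irregular blocks, ports of arc ends, labels of classes, units of positions -/
theorem prod_measure_le_one {i1 i2 i3 i4 B P L U : Type*}
    [Fintype i1] [DecidableEq i1] [Fintype i2] [DecidableEq i2]
    [Fintype i3] [DecidableEq i3] [Fintype i4] [DecidableEq i4]
    [Fintype B] [Fintype P] [Fintype L] [Fintype U]
    (w1 : i1 → B → ℝ) (w2 : i2 → (i1 → B) → P → ℝ) (w3 : i3 → L → ℝ)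
    (w4 : i4 → (i3 → L) → U → ℝ)
    (h10 : ∀ i b, 0 ≤ w1 i b) (h1 : ∀ i, ∑ b, w1 i b ≤ 1)
    (h20 : ∀ i b q, 0 ≤ w2 i b q) (h2 : ∀ i b, ∑ q, w2 i b q ≤ 1)
    (h30 : ∀ i l, 0 ≤ w3 i l) (h3 : ∀ i, ∑ l, w3 i l ≤ 1)
    (h40 : ∀ i l u, 0 ≤ w4 i l u) (h4 : ∀ i l, ∑ u, w4 i l u ≤ 1) :
    ∑ b : i1 → B, ∑ pt : i2 → P, ∑ lab : i3 → L, ∑ un : i4 → U,
      (∏ i, w1 i (b i)) * (∏ i, w2 i b (pt i)) * (∏ i, w3 i (lab i)) * (∏ i, w4 i lab (un i))
      ≤ 1 := by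
  have e1 : ∀ b : i1 → B, 0 ≤ ∏ i, w1 i (b i) := fun b => Finset.prod_nonneg fun i _ => h10 i _
  have e2 : ∀ (b : i1 → B) (pt : i2 → P), 0 ≤ ∏ i, w2 i b (pt i) :=
    fun b pt => Finset.prod_nonneg fun i _ => h20 i _ _
  have e3 : ∀ lab : i3 → L, 0 ≤ ∏ i, w3 i (lab i) := fun b => Finset.prod_nonneg fun i _ => h30 i _
  have s4 : ∀ lab : i3 → L, ∑ un : i4 → U, ∏ i, w4 i lab (un i) ≤ 1 := fun lab =>
    sum_prod_le_one (fun i u => w4 i lab u) (fun i u => h40 i lab u) (fun i => h4 i lab)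
  have s3 : ∑ lab : i3 → L, ∏ i, w3 i (lab i) ≤ 1 := sum_prod_le_one w3 h30 h3
  have s2 : ∀ b : i1 → B, ∑ pt : i2 → P, ∏ i, w2 i b (pt i) ≤ 1 := fun b =>
    sum_prod_le_one (fun i q => w2 i b q) (fun i q => h20 i b q) (fun i => h2 i b)
  have s1 : ∑ b : i1 → B, ∏ i, w1 i (b i) ≤ 1 := sum_prod_le_one w1 h10 h1
  have t3 : ∑ lab : i3 → L, ∑ un : i4 → U, (∏ i, w3 i (lab i)) * (∏ i, w4 i lab (un i)) ≤ 1 := by
    refine le_trans (Finset.sum_le_sum (g := fun lab => ∏ i, w3 i (lab i)) fun lab _ => ?_) s3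
    rw [← Finset.mul_sum]
    exact mul_le_of_le_one_right (e3 lab) (s4 lab)
  calc ∑ b : i1 → B, ∑ pt : i2 → P, ∑ lab : i3 → L, ∑ un : i4 → U,
      (∏ i, w1 i (b i)) * (∏ i, w2 i b (pt i)) * (∏ i, w3 i (lab i)) * (∏ i, w4 i lab (un i))
      = ∑ b : i1 → B, ∑ pt : i2 → P, (∏ i, w1 i (b i)) * (∏ i, w2 i b (pt i)) *
        ∑ lab : i3 → L, ∑ un : i4 → U, (∏ i, w3 i (lab i)) * (∏ i, w4 i lab (un i)) := by
        refine Finset.sum_congr rfl fun b _ => Finset.sum_congr rfl fun pt _ => ?_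
        rw [Finset.mul_sum]
        refine Finset.sum_congr rfl fun lab _ => ?_
        rw [Finset.mul_sum]
        refine Finset.sum_congr rfl fun un _ => ?_
        ring
    _ ≤ ∑ b : i1 → B, ∑ pt : i2 → P, (∏ i, w1 i (b i)) * (∏ i, w2 i b (pt i)) := by
        refine Finset.sum_le_sum fun b _ => Finset.sum_le_sum fun pt _ => ?_
        exact mul_le_of_le_one_right (mul_nonneg (e1 b) (e2 b pt)) t3
    _ = ∑ b : i1 → B, (∏ i, w1 i (b i)) * ∑ pt : i2 → P, (∏ i, w2 i b (pt i)) := by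
        refine Finset.sum_congr rfl fun b _ => ?_
        rw [Finset.mul_sum]
    _ ≤ ∑ b : i1 → B, (∏ i, w1 i (b i)) := by
        refine Finset.sum_le_sum fun b _ => ?_
        exact mul_le_of_le_one_right (e1 b) (s2 b)
    _ ≤ 1 := s1

end Vale.Agent.P201.S
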