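import Vale.Agent.P201.S.C.Defs

/-!
P201, part C for the general system: facts on densities (helper174).
-/

namespace Vale.Agent.P201.S

open Finset

variable {S : Sys}

namespace CRho

open Classical in
theorem nlab_rev (l : Lbl S) : nlab S (rev l) = nlab S l := by
  rw [nlab, nlab]
  apply card_bij (fun u _ => (u.2, u.1))
  · intro u hu
    rw [mem_filter] at hu ⊢
    obtain ⟨-, ⟨h1, h2⟩, h3⟩ := hu
    refine ⟨mem_univ _, ⟨h1.symm, fun h => h2 h.symm⟩, ?_⟩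
    have e1 : S.rc u.1 = l.2.1 := congrArg Prod.fst h3
    have e2 : S.rc u.2 = l.1 := congrArg (fun x => x.2.1) h3
    have e3 : S.ht u.2 - S.ht u.1 = - l.2.2 := congrArg (fun x => x.2.2) h3
    show (S.rc u.2, S.rc u.1, S.ht u.1 - S.ht u.2) = l
    rw [e1, e2, show S.ht u.1 - S.ht u.2 = l.2.2 by omega]
  · intro u _ v _ h
    exact Prod.ext (congrArg Prod.snd h) (congrArg Prod.fst h)
  · intro u hu
    rw [mem_filter] at hu
    obtain ⟨-, ⟨h1, h2⟩, h3⟩ := hu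
    refine ⟨(u.2, u.1), ?_, rfl⟩
    rw [mem_filter]
    refine ⟨mem_univ _, ⟨h1.symm, fun h => h2 h.symm⟩, ?_⟩
    rw [← h3]
    show (S.rc u.2, S.rc u.1, S.ht u.1 - S.ht u.2) = (S.rc u.2, S.rc u.1, -(S.ht u.2 - S.ht u.1))
    rw [neg_sub]

theorem nlab_eq_nu (l : Lbl S) : nlab S l = nu S l.1 l.2.1 l.2.2 := by
  classical
  rw [nlab, nu]
  congr 1
  ext u
  rw [mem_filter, mem_filter]
  constructor
  · rintro ⟨-, ⟨h1, h2⟩, h3⟩
    rw [← h3]
    exact ⟨mem_univ _, h1, h2, rfl, rfl, rfl⟩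
  · rintro ⟨-, h1, h2, h3, h4, h5⟩
    refine ⟨mem_univ _, ⟨h1, h2⟩, ?_⟩
    unfold lam
    rw [h3, h4, h5]

theorem sum_sq_le (L : Finset (Lbl S)) : ∑ l ∈ L, nlab S l ^ 2 ≤ nu2 S := by
  classical
  let U : Lbl S → Finset (Port S × Port S) := fun l => univ.filter fun u => IsU u ∧ lam u = l
  have h0 : ∀ l, nlab S l ^ 2 = (U l ×ˢ U l).card := by
    intro l
    rw [card_product, sq]
    rfl
  simp only [h0]
  rw [← card_biUnion]
  · apply card_le_card
    intro x hx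
    rw [mem_biUnion] at hx
    obtain ⟨l, -, hx⟩ := hx
    rw [mem_product] at hx
    obtain ⟨hx1, hx2⟩ := hx
    obtain ⟨-, ⟨h1, h2⟩, h3⟩ := mem_filter.1 hx1
    obtain ⟨-, ⟨h4, h5⟩, h6⟩ := mem_filter.1 hx2
    have h7 := h3.trans h6.symm
    unfold lam at h7
    rw [Prod.mk.injEq, Prod.mk.injEq] at h7
    rw [mem_filter]
    exact ⟨mem_univ _, h1, h2, h4, h5, h7.1, h7.2.1, h7.2.2⟩
  · intro l _ l' _ hll
    rw [Function.onFun, disjoint_left]
    intro x hx hx'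
    rw [mem_product] at hx hx'
    exact hll ((mem_filter.1 hx.1).2.2.symm.trans (mem_filter.1 hx'.1).2.2)

end CRho

open CRho in
theorem stmtRho : StmtRho := by
  intro S D hS hN
  have hN' : (0 : ℝ) < (Fintype.card S.C : ℝ) := by exact_mod_cast hN
  refine ⟨fun L => ?_, fun u hu => ?_, fun l => ?_⟩
  · have h1 : ∑ l ∈ L, rho S l ^ 2 = ((∑ l ∈ L, nlab S l ^ 2 : ℕ) : ℝ) / (Fintype.card S.C : ℝ) ^ 2 := by
      push_cast
      rw [sum_div]
      refine sum_congr rfl fun l _ => ?_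
      rw [rho, div_pow]
    rw [h1, div_le_iff₀ (by positivity)]
    have h2 : ((∑ l ∈ L, nlab S l ^ 2 : ℕ) : ℝ) ≤ (nu2 S : ℝ) := by exact_mod_cast sum_sq_le L
    have h3 : (2 : ℝ) * (nu2 S : ℝ) ≤ (Fintype.card S.C : ℝ) ^ 2 := by exact_mod_cast hS.w
    linarith
  · rw [rho, ← mul_div_assoc, le_div_iff₀ hN', one_mul, nlab_eq_nu]
    have := hS.labels u.1 u.2 hu.1 hu.2
    exact_mod_cast this
  · rw [rho, rho, nlab_rev]

end Vale.Agent.P201.S
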