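import Vale.Agent.P201.S.LA.PDefs

/-!
P201, part C: product kernels and the weight of descriptions of a pattern (helper786).
-/

namespace Vale.Agent.P201.S

open Finset

variable {S : Sys}

lemma kn_prod_le {A B : Type} [Fintype A] [Fintype B] (f : A → ℝ) (g : A → B → ℝ)
    (hf : ∀ a, 0 ≤ f a) (hs : ∑ a, f a ≤ 1) (hg : ∀ a, ∑ b, g a b ≤ 1) :
    ∑ x : A × B, f x.1 * g x.1 x.2 ≤ 1 := by
  rw [Fintype.sum_prod_type]
  calc ∑ a, ∑ b, f a * g a b = ∑ a, f a * ∑ b, g a b := by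
        simp only [Finset.mul_sum]
    _ ≤ ∑ a, f a * 1 := Finset.sum_le_sum fun a _ => mul_le_mul_of_nonneg_left (hg a) (hf a)
    _ ≤ 1 := by simpa using hs

lemma kn_pi_le {ι B : Type} [Fintype ι] [DecidableEq ι] [Fintype B] (g : ι → B → ℝ)
    (h0 : ∀ i b, 0 ≤ g i b) (hs : ∀ i, ∑ b, g i b ≤ 1) :
    ∑ f : ι → B, ∏ i, g i (f i) ≤ 1 := by
  have h := Finset.prod_univ_sum (fun _ : ι => (univ : Finset B)) g
  rw [Fintype.piFinset_univ] at h
  rw [← h]
  exact Finset.prod_le_one (fun i _ => Finset.sum_nonneg fun b _ => h0 i b) fun i _ => hs i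

/-- the matched pair (copy-1 cell, copy-2 cell) of two ports of different copies -/
def prt (x y : Port S) : S.C × S.C := if x.2 then (x.1, y.1) else (y.1, x.1)

/-! ## Descriptions -/

open Classical in
/-- all labels of pairs of ports -/
noncomputable def labs (S : Sys) : Finset (Lbl S) :=
  univ.image (fun u : Port S × Port S => lam u)

lemma lam_mem_labs (u : Port S × Port S) : lam u ∈ labs S := by
  classical
  exact Finset.mem_image.2 ⟨u, Finset.mem_univ _, rfl⟩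

/-- label with sign -/
def sgl (l : Lbl S) (b : Bool) : Lbl S := if b then l else rev l

/-- irregular half-edges -/
abbrev Ptn.IH (P : Ptn) : Type := {h : P.E × Bool // (P.att h).isLeft = true}

/-- vertex of an irregular half-edge -/
def Ptn.iv (P : Ptn) (h : P.IH) : P.V := (P.att h.1).getLeft h.2

/-- descriptions of a pattern -/
abbrev Dsc (P : Ptn) (S : Sys) : Type :=
  ((P.V → S.B) × (P.IH → Port S)) × ((P.C → labs S) × (P.R → Port S × Port S))

open Classical in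
noncomputable def wV (P : Ptn) (S : Sys) (_β : P.V → S.B) : ℝ :=
  ∏ _v : P.V, (1 / (Fintype.card (S.B) : ℝ)) 

open Classical in
noncomputable def wH (D : ℕ) (P : Ptn) (β : P.V → S.B) (π : P.IH → Port S) : ℝ :=
  ∏ h : P.IH, if S.blk (π h) = β (P.iv h) then 1 / (D : ℝ) else 0

open Classical in
noncomputable def wC (P : Ptn) (S : Sys) (L : P.C → labs S) : ℝ :=
  ∏ c : P.C, 2 * rho S (L c).1 ^ 2

open Classical in
noncomputable def wR (P : Ptn) (L : P.C → labs S) (u : P.R → Port S × Port S) : ℝ :=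
  ∏ r : P.R, if IsU (u r) ∧ lam (u r) = sgl (L (P.cl r).1).1 (P.cl r).2 then
    1 / (nlab S (sgl (L (P.cl r).1).1 (P.cl r).2) : ℝ) else 0

noncomputable def wt (D : ℕ) (P : Ptn) (x : Dsc P S) : ℝ :=
  (wV P S x.1.1 * wH D P x.1.1 x.1.2) * (wC P S x.2.1 * wR P x.2.1 x.2.2)

lemma wV_nonneg (P : Ptn) (β : P.V → S.B) : 0 ≤ wV P S β :=
  Finset.prod_nonneg fun _ _ => by positivity

lemma wH_nonneg (D : ℕ) (P : Ptn) (β : P.V → S.B) (π : P.IH → Port S) : 0 ≤ wH D P β π :=
  Finset.prod_nonneg fun _ _ => by split_ifs <;> positivity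

lemma wC_nonneg (P : Ptn) (L : P.C → labs S) : 0 ≤ wC P S L :=
  Finset.prod_nonneg fun _ _ => by positivity

lemma wR_nonneg (P : Ptn) (L : P.C → labs S) (u : P.R → Port S × Port S) : 0 ≤ wR P L u :=
  Finset.prod_nonneg fun _ _ => by split_ifs <;> positivity

lemma wt_nonneg (D : ℕ) (P : Ptn) (x : Dsc P S) : 0 ≤ wt D P x :=
  mul_nonneg (mul_nonneg (wV_nonneg _ _) (wH_nonneg _ _ _ _))
    (mul_nonneg (wC_nonneg _ _) (wR_nonneg _ _ _))

lemma sum_wV_le (P : Ptn) : ∑ β : P.V → S.B, wV P S β ≤ 1 := by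
  classical
  unfold wV
  refine kn_pi_le (fun _ _ => 1 / (Fintype.card (S.B) : ℝ)) (fun _ _ => by positivity) ?_
  intro _
  rw [Finset.sum_const, Finset.card_univ, nsmul_eq_mul]
  rcases Nat.eq_zero_or_pos (Fintype.card (S.B)) with h | h
  · rw [h]; simp
  · have h' : (Fintype.card (S.B) : ℝ) ≠ 0 := by positivity
    rw [mul_one_div_cancel h']

lemma sum_wH_le {D : ℕ} (P : Ptn) (hD : 0 < D)
    (hp : ∀ b : S.B, (univ.filter (fun q : Port S => S.blk q = b)).card ≤ D) (β : P.V → S.B) :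
    ∑ π : P.IH → Port S, wH D P β π ≤ 1 := by
  classical
  unfold wH
  refine kn_pi_le (fun (h : P.IH) (q : Port S) =>
    if S.blk q = β (P.iv h) then 1 / (D : ℝ) else 0)
    (fun _ _ => by split_ifs <;> positivity) ?_
  intro h
  rw [← Finset.sum_filter, Finset.sum_const, nsmul_eq_mul]
  have h1 := hp (β (P.iv h))
  have h2 : (0 : ℝ) < (D : ℝ) := by exact_mod_cast hD
  rw [mul_one_div, div_le_one h2]
  have h3 : (univ.filter (fun q : Port S => S.blk q = β (P.iv h))).card ≤ D := by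
    convert h1
  exact_mod_cast h3

lemma sum_wR_le (P : Ptn) (L : P.C → labs S) :
    ∑ u : P.R → Port S × Port S, wR P L u ≤ 1 := by
  classical
  unfold wR
  refine kn_pi_le (fun (r : P.R) (u : Port S × Port S) =>
    if IsU u ∧ lam u = sgl (L (P.cl r).1).1 (P.cl r).2 then
    1 / (nlab S (sgl (L (P.cl r).1).1 (P.cl r).2) : ℝ) else 0)
    (fun _ _ => by split_ifs <;> positivity) ?_
  intro r
  rw [← Finset.sum_filter, Finset.sum_const, nsmul_eq_mul]
  have h1 : (univ.filter (fun u : Port S × Port S =>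
      IsU u ∧ lam u = sgl (L (P.cl r).1).1 (P.cl r).2)).card =
      nlab S (sgl (L (P.cl r).1).1 (P.cl r).2) := by
    unfold nlab
    congr
  rw [h1]
  rcases Nat.eq_zero_or_pos (nlab S (sgl (L (P.cl r).1).1 (P.cl r).2)) with h | h
  · rw [h]; simp
  · have h' : (nlab S (sgl (L (P.cl r).1).1 (P.cl r).2) : ℝ) ≠ 0 := by positivity
    rw [mul_one_div_cancel h']

lemma sum_wC_le (P : Ptn) (hrho : ∀ L : Finset (Lbl S), ∑ l ∈ L, rho S l ^ 2 ≤ 1 / 2) :
    ∑ L : P.C → labs S, wC P S L ≤ 1 := by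
  classical
  unfold wC
  refine kn_pi_le (fun _ (l : labs S) => 2 * rho S l.1 ^ 2) (fun _ _ => by positivity) ?_
  intro _
  rw [← Finset.mul_sum, Finset.sum_coe_sort (labs S) (fun l => rho S l ^ 2)]
  have := hrho (labs S)
  linarith

lemma sum_wt_le {D : ℕ} (P : Ptn) (hD : 0 < D)
    (hp : ∀ b : S.B, (univ.filter (fun q : Port S => S.blk q = b)).card ≤ D)
    (hrho : ∀ L : Finset (Lbl S), ∑ l ∈ L, rho S l ^ 2 ≤ 1 / 2) :
    ∑ x : Dsc P S, wt D P x ≤ 1 := by
  classical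
  unfold wt
  have h1 : ∑ y : (P.V → S.B) × (P.IH → Port S), wV P S y.1 * wH D P y.1 y.2 ≤ 1 :=
    kn_prod_le (wV P S) (wH D P) (wV_nonneg P) (sum_wV_le P) (sum_wH_le P hD hp)
  have h2 : ∑ y : (P.C → labs S) × (P.R → Port S × Port S),
      wC P S y.1 * wR P y.1 y.2 ≤ 1 :=
    kn_prod_le (wC P S) (wR P) (wC_nonneg P) (sum_wC_le P hrho) (sum_wR_le P)
  exact kn_prod_le (fun y : (P.V → S.B) × (P.IH → Port S) => wV P S y.1 * wH D P y.1 y.2)
    (fun _ (y : (P.C → labs S) × (P.R → Port S × Port S)) => wC P S y.1 * wR P y.1 y.2)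
    (fun y => mul_nonneg (wV_nonneg _ _) (wH_nonneg _ _ _ _)) h1 (fun _ => h2)

end Vale.Agent.P201.S
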