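import Vale.Agent.P201.S.C.UK

/-!
P201, part C: StmtB + StmtRho imply StmtU (helper786).
-/

namespace Vale.Agent.P201.S

open Finset

variable {S : Sys}

/-- port of a half-edge in a description -/
noncomputable def dport (P : Ptn) (x : Dsc P S) (h : P.E × Bool) : Port S :=
  match hh : P.att h with
  | Sum.inl _ => x.1.2 ⟨h, by rw [hh]; rfl⟩
  | Sum.inr (r, true) => (x.2.2 r).1
  | Sum.inr (r, false) => (x.2.2 r).2

open Classical in
/-- set of matched pairs of a description -/
noncomputable def ddec (P : Ptn) (x : Dsc P S) : Finset (S.C × S.C) :=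
  univ.image (fun e : P.E => prt (dport P x (e, true)) (dport P x (e, false)))

lemma ddec_card_le (P : Ptn) (x : Dsc P S) : (ddec P x).card ≤ Fintype.card P.E := by
  classical
  unfold ddec
  exact Finset.card_image_le

open Classical in
/-- the weight function on sets of pairs -/
noncomputable def QQ (D : ℕ) {ι : Type} [Fintype ι] (PP : ι → Ptn) (S : Sys)
    (T : Finset (S.C × S.C)) : ℝ :=
  ∑ i, (1 / (Fintype.card ι : ℝ)) *
    ∑ x : Dsc (PP i) S, if ddec (PP i) x = T then wt D (PP i) x else 0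

lemma QQ_nonneg (D : ℕ) {ι : Type} [Fintype ι] (PP : ι → Ptn) (T : Finset (S.C × S.C)) :
    0 ≤ QQ D PP S T := by
  classical
  unfold QQ
  refine Finset.sum_nonneg fun i _ => mul_nonneg (by positivity) (Finset.sum_nonneg fun x _ => ?_)
  split_ifs
  · exact wt_nonneg _ _ _
  · exact le_rfl

lemma QQ_sum {D : ℕ} {ι : Type} [Fintype ι] [Nonempty ι] (PP : ι → Ptn) (hD : 0 < D)
    (hp : ∀ b : S.B, (univ.filter (fun q : Port S => S.blk q = b)).card ≤ D)
    (hrho : ∀ L : Finset (Lbl S), ∑ l ∈ L, rho S l ^ 2 ≤ 1 / 2) :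
    ∑ T, QQ D PP S T ≤ 1 := by
  classical
  unfold QQ
  rw [Finset.sum_comm]
  have h1 : ∀ i : ι, ∑ T : Finset (S.C × S.C), (1 / (Fintype.card ι : ℝ)) *
      (∑ x : Dsc (PP i) S, if ddec (PP i) x = T then wt D (PP i) x else 0) ≤
      1 / (Fintype.card ι : ℝ) := by
    intro i
    rw [← Finset.mul_sum, Finset.sum_comm]
    have h2 : ∀ x : Dsc (PP i) S, (∑ T : Finset (S.C × S.C),
        if ddec (PP i) x = T then wt D (PP i) x else 0) = wt D (PP i) x := by
      intro x
      rw [Finset.sum_eq_single (ddec (PP i) x)]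
      · rw [if_pos rfl]
      · intro T _ hS
        rw [if_neg (Ne.symm hS)]
      · intro h
        exact absurd (Finset.mem_univ _) h
    rw [Finset.sum_congr rfl (fun x _ => h2 x)]
    have h3 := sum_wt_le (S := S) (PP i) hD hp hrho
    calc 1 / (Fintype.card ι : ℝ) * ∑ x : Dsc (PP i) S, wt D (PP i) x
        ≤ 1 / (Fintype.card ι : ℝ) * 1 := mul_le_mul_of_nonneg_left h3 (by positivity)
      _ = 1 / (Fintype.card ι : ℝ) := mul_one _
  refine (Finset.sum_le_sum fun i _ => h1 i).trans ?_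
  rw [Finset.sum_const, Finset.card_univ, nsmul_eq_mul]
  have h' : (Fintype.card ι : ℝ) ≠ 0 := by
    have := Fintype.card_pos (α := ι)
    positivity
  rw [mul_one_div_cancel h']

lemma QQ_card {D : ℕ} {ι : Type} [Fintype ι] (PP : ι → Ptn) {M : ℕ}
    (hM : ∀ i, Fintype.card (PP i).E ≤ M) (T : Finset (S.C × S.C))
    (h : QQ D PP S T ≠ 0) : T.card ≤ M := by
  classical
  by_contra hc
  apply h
  unfold QQ
  refine Finset.sum_eq_zero fun i _ => ?_
  rw [Finset.sum_eq_zero, mul_zero]
  intro x _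
  rw [if_neg]
  rintro rfl
  exact hc ((ddec_card_le _ _).trans (hM i))

lemma QQ_lower (D : ℕ) {ι : Type} [Fintype ι] (PP : ι → Ptn) (i : ι) (x : Dsc (PP i) S) :
    (1 / (Fintype.card ι : ℝ)) * wt D (PP i) x ≤ QQ D PP S (ddec (PP i) x) := by
  classical
  unfold QQ
  have h1 : ∀ j ∈ (univ : Finset ι), 0 ≤ (1 / (Fintype.card ι : ℝ)) *
      ∑ y : Dsc (PP j) S, if ddec (PP j) y = ddec (PP i) x then wt D (PP j) y else 0 := by
    intro j _
    refine mul_nonneg (by positivity) (Finset.sum_nonneg fun y _ => ?_)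
    split_ifs
    · exact wt_nonneg _ _ _
    · exact le_rfl
  refine le_trans ?_ (Finset.single_le_sum h1 (Finset.mem_univ i))
  refine mul_le_mul_of_nonneg_left ?_ (by positivity)
  have h2 : ∀ y ∈ (univ : Finset (Dsc (PP i) S)),
      0 ≤ (if ddec (PP i) y = ddec (PP i) x then wt D (PP i) y else 0) := by
    intro y _
    split_ifs
    · exact wt_nonneg _ _ _
    · exact le_rfl
  have h3 := Finset.single_le_sum h2 (Finset.mem_univ x)
  simpa using h3

/-! ## The description of a realization -/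

lemma rev_rev' (l : Lbl S) : rev (rev l) = l := by
  obtain ⟨a, b, d⟩ := l
  simp [rev]

lemma rev_lam (u : Port S × Port S) : rev (lam u) = lam (u.2, u.1) := by
  simp [rev, lam]

lemma sgl_true (l : Lbl S) : sgl l true = l := rfl

lemma sgl_false (l : Lbl S) : sgl l false = rev l := rfl

section
variable {P : Ptn} {σ : Equiv.Perm (S.C)} (r : Rlz P σ)

lemma Rlz.hlam' (x : P.R) : lam (r.prt (P.hf (x, true)), r.prt (P.hf (x, false))) =
    sgl (r.L (P.cl x).1) (P.cl x).2 := r.hlam x

lemma Rlz.L_mem (c : P.C) : r.L c ∈ labs S := by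
  obtain ⟨x, hx⟩ := P.cl_surj c
  have h := r.hlam' x
  rw [hx] at h
  rcases hb : (P.cl x).2 with _ | _
  · rw [hb, sgl_false] at h
    rw [← rev_rev' (r.L c), ← h, rev_lam]
    exact lam_mem_labs _
  · rw [hb, sgl_true] at h
    rw [← h]
    exact lam_mem_labs _

/-- description of a realization -/
noncomputable def rdsc : Dsc P S :=
  ((r.vb, fun h => r.prt h.1), (fun c => ⟨r.L c, r.L_mem c⟩,
    fun x => (r.prt (P.hf (x, true)), r.prt (P.hf (x, false)))))

lemma dport_rdsc (h : P.E × Bool) : dport P (rdsc r) h = r.prt h := by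
  unfold dport
  split
  · rfl
  · rename_i s hh
    rw [P.hf_unique h _ hh]
    rfl
  · rename_i s hh
    rw [P.hf_unique h _ hh]
    rfl

lemma mt_snd' (q : Port S) : (mt σ q).2 = !q.2 := by
  unfold mt
  rcases hq : q.2 with _ | _ <;> simp

/-- the pair of a matched port -/
lemma prt_mem_gr (q q' : Port S) (h : mt σ q = q') : prt q q' ∈ gr σ := by
  classical
  subst h
  unfold prt mt gr
  rcases hq : q.2 with _ | _
  · simp
  · simp

lemma prt_fst (q q' : Port S) (h : mt σ q = q') :
    ((prt q q').1, true) = q ∨ ((prt q q').1, true) = q' := by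
  subst h
  obtain ⟨c, b⟩ := q
  rcases b with _ | _
  · right
    simp [prt, mt]
  · left
    simp [prt]

lemma ddec_rdsc_sub : ddec P (rdsc r) ⊆ gr σ := by
  classical
  intro y hy
  unfold ddec at hy
  rw [Finset.mem_image] at hy
  obtain ⟨e, _, rfl⟩ := hy
  rw [dport_rdsc, dport_rdsc]
  exact prt_mem_gr _ _ (r.mate e)

lemma ddec_rdsc_card : (ddec P (rdsc r)).card = Fintype.card P.E := by
  classical
  unfold ddec
  rw [Finset.card_image_of_injective, Finset.card_univ]
  intro e e' h
  simp only [dport_rdsc] at h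
  have h1 := prt_fst _ _ (r.mate e)
  have h2 := prt_fst _ _ (r.mate e')
  rw [h] at h1
  rcases h1 with h1 | h1 <;> rcases h2 with h2 | h2 <;>
  · have h3 := r.inj (h1.symm.trans h2)
    exact congrArg Prod.fst h3

lemma isU_rdsc (x : P.R) : IsU (r.prt (P.hf (x, true)), r.prt (P.hf (x, false))) := by
  refine ⟨r.hblk x, fun h => ?_⟩
  have h1 := r.inj h
  have h2 := congrArg P.att h1
  rw [P.att_hf, P.att_hf] at h2
  simp at h2

lemma nlab_pos_of (u : Port S × Port S) (h : IsU u) : 0 < nlab S (lam u) := by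
  classical
  unfold nlab
  rw [Finset.card_pos]
  exact ⟨u, by simp [h]⟩

/-- logarithm of the weight of the description of a realization -/
lemma log_wt_rdsc {D : ℕ} (hT : 0 < D) (hN : 0 < Fintype.card (S.C))
    (hnb : 0 < Fintype.card (S.B)) (hrev : ∀ l : Lbl S, rho S (rev l) = rho S l) :
    0 < wt D P (rdsc r) ∧ Real.log (wt D P (rdsc r)) =
      -(Fintype.card P.V * Real.log (Fintype.card (S.B))) -
      P.H * Real.log (D : ℝ) +
      (∑ c : P.C, (Real.log 2 + 2 * Real.log (rho S (r.L c)))) -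
      ∑ x : P.R, (Real.log (rho S (r.L (P.cl x).1)) + Real.log (Fintype.card (S.C))) := by
  classical
  have hN' : (0 : ℝ) < Fintype.card (S.C) := by exact_mod_cast hN
  have hnb' : (0 : ℝ) < Fintype.card (S.B) := by exact_mod_cast hnb
  have h2T : (0 : ℝ) < (D : ℝ) := by exact_mod_cast hT
  -- labels have positive density
  have hsg : ∀ x : P.R, 0 < nlab S (sgl (r.L (P.cl x).1) (P.cl x).2) := by
    intro x
    rw [← r.hlam' x]
    exact nlab_pos_of _ (isU_rdsc r x)
  have hrs : ∀ (l : Lbl S) (b : Bool), rho S (sgl l b) = rho S l := by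
    intro l b
    cases b
    · exact hrev l
    · rfl
  have hnr : ∀ l : Lbl S, (nlab S l : ℝ) = rho S l * Fintype.card (S.C) := by
    intro l
    unfold rho
    rw [div_mul_cancel₀ _ hN'.ne']
  have hpos : ∀ x : P.R, 0 < rho S (r.L (P.cl x).1) := by
    intro x
    rw [← hrs _ (P.cl x).2]
    unfold rho
    have := hsg x
    positivity
  have hposC : ∀ c : P.C, 0 < rho S (r.L c) := by
    intro c
    obtain ⟨x, hx⟩ := P.cl_surj c
    have := hpos x
    rwa [hx] at this
  have eV : wV P S (rdsc r).1.1 = (1 / (Fintype.card (S.B) : ℝ)) ^ Fintype.card P.V := by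
    unfold wV
    rw [Finset.prod_const, Finset.card_univ]
  have eH : wH D P (rdsc r).1.1 (rdsc r).1.2 = (1 / (D : ℝ)) ^ P.H := by
    unfold wH
    rw [Finset.prod_congr rfl (g := fun _ => 1 / (D : ℝ)), Finset.prod_const,
      Finset.card_univ, Fintype.card_subtype]
    · rfl
    · intro h _
      rw [if_pos]
      refine r.hv h.1 _ ?_
      unfold Ptn.iv
      simp
  have eC : wC P S (rdsc r).2.1 = ∏ c : P.C, 2 * rho S (r.L c) ^ 2 := rfl
  have eR : wR P (rdsc r).2.1 (rdsc r).2.2 =
      ∏ x : P.R, 1 / (rho S (r.L (P.cl x).1) * Fintype.card (S.C)) := by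
    unfold wR
    refine Finset.prod_congr rfl fun x _ => ?_
    rw [if_pos]
    · change 1 / (nlab S (sgl (r.L (P.cl x).1) (P.cl x).2) : ℝ) = _
      rw [hnr, hrs]
    · exact ⟨isU_rdsc r x, r.hlam' x⟩
  have pV : 0 < wV P S (rdsc r).1.1 := by rw [eV]; positivity
  have pH : 0 < wH D P (rdsc r).1.1 (rdsc r).1.2 := by rw [eH]; positivity
  have pC : 0 < wC P S (rdsc r).2.1 := by
    rw [eC]
    exact Finset.prod_pos fun c _ => by have := hposC c; positivity
  have pR : 0 < wR P (rdsc r).2.1 (rdsc r).2.2 := by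
    rw [eR]
    exact Finset.prod_pos fun x _ => by have := hpos x; positivity
  have lV : Real.log (wV P S (rdsc r).1.1) =
      -(Fintype.card P.V * Real.log (Fintype.card (S.B))) := by
    rw [eV, Real.log_pow, one_div, Real.log_inv]
    ring
  have lH : Real.log (wH D P (rdsc r).1.1 (rdsc r).1.2) =
      -(P.H * Real.log (D : ℝ)) := by
    rw [eH, Real.log_pow, one_div, Real.log_inv]
    ring
  have lC : Real.log (wC P S (rdsc r).2.1) =
      ∑ c : P.C, (Real.log 2 + 2 * Real.log (rho S (r.L c))) := by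
    rw [eC, Real.log_prod]
    · refine Finset.sum_congr rfl fun c _ => ?_
      have := hposC c
      rw [Real.log_mul (by norm_num) (by positivity), Real.log_pow]
      norm_num
    · intro c _
      have := hposC c
      positivity
  have lR : Real.log (wR P (rdsc r).2.1 (rdsc r).2.2) =
      - ∑ x : P.R, (Real.log (rho S (r.L (P.cl x).1)) + Real.log (Fintype.card (S.C))) := by
    rw [eR, Real.log_prod]
    · rw [← Finset.sum_neg_distrib]
      refine Finset.sum_congr rfl fun x _ => ?_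
      have := hpos x
      rw [one_div, Real.log_inv, Real.log_mul this.ne' hN'.ne']
    · intro x _
      have := hpos x
      positivity
  refine ⟨mul_pos (mul_pos pV pH) (mul_pos pC pR), ?_⟩
  unfold wt
  rw [Real.log_mul (mul_pos pV pH).ne' (mul_pos pC pR).ne', Real.log_mul pV.ne' pH.ne',
    Real.log_mul pC.ne' pR.ne', lV, lH, lC, lR]
  ring

end

/-- the elementary estimate of the error of the change of measure -/
lemma log_sub_est {N X : ℝ} {E M : ℕ} (hX : 1 ≤ X) (hEM : E ≤ M) (h : (2 * M + 2) * X ≤ N) :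
    0 < N - X ∧ (E : ℝ) * Real.log N - 1 ≤ E * Real.log (N - X) := by
  have hM0 : (0 : ℝ) ≤ M := Nat.cast_nonneg M
  have hE0 : (0 : ℝ) ≤ E := Nat.cast_nonneg E
  have hEM' : (E : ℝ) ≤ M := by exact_mod_cast hEM
  have h1 : (2 * (M : ℝ) + 1) * X ≤ N - X := by nlinarith
  have h2 : 0 < N - X := by nlinarith
  have hN : 0 < N := by linarith
  refine ⟨h2, ?_⟩
  have h3 : Real.log N - Real.log (N - X) ≤ X / (N - X) := by
    rw [← Real.log_div hN.ne' h2.ne']
    have h4 := Real.log_le_sub_one_of_pos (x := N / (N - X)) (by positivity)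
    have h5 : N / (N - X) - 1 = X / (N - X) := by
      field_simp
      ring
    linarith
  have h6 : X / (N - X) ≤ 1 / (2 * (M : ℝ) + 1) := by
    rw [div_le_div_iff₀ h2 (by positivity)]
    nlinarith
  have h7 : (E : ℝ) * (Real.log N - Real.log (N - X)) ≤ 1 := by
    calc (E : ℝ) * (Real.log N - Real.log (N - X)) ≤ E * (1 / (2 * (M : ℝ) + 1)) :=
          mul_le_mul_of_nonneg_left (h3.trans h6) hE0
      _ ≤ 1 := by
          rw [mul_one_div, div_le_one (by positivity)]
          linarith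
  linarith

theorem stmtU (hB : StmtB) (hR : StmtRho) : StmtU := by
  classical
  intro D
  refine ⟨2 * Real.log (D : ℝ) + 1, ?_, ?_⟩
  · have h1 : 0 ≤ Real.log (D : ℝ) := Real.log_natCast_nonneg _
    linarith
  intro S hS g M hN hsize ι _ _ PP hE
  obtain ⟨hr1, hr2, hr3⟩ := hR S D hS hN
  -- a port exists, hence `0 < D` and a block exists
  obtain ⟨c0⟩ : Nonempty S.C := Fintype.card_pos_iff.1 hN
  have hT : 0 < D := by
    have h1 := hS.ports (S.blk (c0, true))
    have h2 : 0 < (univ.filter (fun q : Port S => S.blk q = S.blk (c0, true))).card :=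
      Finset.card_pos.2 ⟨(c0, true), by simp⟩
    omega
  have hX1 : 1 ≤ (2 * D + 2) ^ (g + 3) := Nat.one_le_pow _ _ (by omega)
  have hBs := hB S g D M hS.ports (by
    nlinarith) (QQ D PP S) (QQ_nonneg D PP) (QQ_sum PP hT hS.ports hr1) (QQ_card PP hE)
  obtain ⟨σ, hg, hσ⟩ := hBs
  refine ⟨σ, hg, fun i r => ?_⟩
  have hnb : 0 < Fintype.card S.B := Fintype.card_pos_iff.2 ⟨S.blk (c0, true)⟩
  obtain ⟨hw0, hlw⟩ := log_wt_rdsc r hT hN hnb hr3
  have h1 := hσ (ddec (PP i) (rdsc r)) (ddec_rdsc_sub r)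
  rw [ddec_rdsc_card] at h1
  set X : ℝ := ((2 * D + 2) ^ (g + 3) : ℕ) + (M : ℝ) with hXdef
  have hcast : ((Fintype.card S.C : ℝ) - (2 * (D : ℝ) + 2) ^ (g + 3) - M) =
      (Fintype.card S.C : ℝ) - X := by
    rw [hXdef]
    push_cast
    ring
  rw [hcast] at h1
  have hsz : (2 * (M : ℝ) + 2) * X ≤ (Fintype.card S.C : ℝ) := by
    rw [hXdef]
    exact_mod_cast hsize
  have hX1' : 1 ≤ X := by
    rw [hXdef]
    have : (1 : ℝ) ≤ ((2 * D + 2) ^ (g + 3) : ℕ) := by exact_mod_cast hX1
    have hM0 : (0 : ℝ) ≤ M := Nat.cast_nonneg M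
    linarith
  obtain ⟨hNX, hest⟩ := log_sub_est (E := Fintype.card (PP i).E) hX1' (hE i) hsz
  have hι : (0 : ℝ) < Fintype.card ι := by exact_mod_cast Fintype.card_pos
  have h2 : (1 / (Fintype.card ι : ℝ)) * wt D (PP i) (rdsc r) *
      ((Fintype.card S.C : ℝ) - X) ^ Fintype.card (PP i).E ≤ 1 :=
    (mul_le_mul_of_nonneg_right (QQ_lower D PP i (rdsc r)) (by positivity)).trans h1
  have h3 := Real.log_le_log (by positivity) h2
  rw [Real.log_one, Real.log_mul (by positivity) (by positivity), Real.log_mul (by positivity)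
    hw0.ne', Real.log_pow, one_div, Real.log_inv, hlw] at h3
  -- blocks
  have hD' : (0 : ℝ) < D := by exact_mod_cast hT
  have hN' : (0 : ℝ) < Fintype.card S.C := by exact_mod_cast hN
  have hlnb : Real.log (Fintype.card S.B) ≤
      Real.log (D : ℝ) + Real.log (Fintype.card S.C) := by
    rw [← Real.log_mul hD'.ne' hN'.ne']
    have e1 : (Fintype.card S.B : ℝ) ≤ D * Fintype.card S.C := by exact_mod_cast hS.blocks
    have e2 : (0 : ℝ) < Fintype.card S.B := by exact_mod_cast hnb
    exact Real.log_le_log e2 e1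
  have hV0 : (0 : ℝ) ≤ Fintype.card (PP i).V := Nat.cast_nonneg _
  have hH0 : (0 : ℝ) ≤ (PP i).H := Nat.cast_nonneg _
  have hlT : 0 ≤ Real.log (D : ℝ) := Real.log_natCast_nonneg _
  have hVb := mul_le_mul_of_nonneg_left hlnb hV0
  have hsum : ∑ x : (PP i).R, (Real.log (rho S (r.L ((PP i).cl x).1)) +
      Real.log (Fintype.card S.C)) = ∑ x : (PP i).R, Real.log (rho S (r.L ((PP i).cl x).1)) +
      Fintype.card (PP i).R * Real.log (Fintype.card S.C) := by
    rw [Finset.sum_add_distrib, Finset.sum_const, Finset.card_univ, nsmul_eq_mul]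
  rw [hsum] at h3
  unfold UIneq
  have hc1 : 0 ≤ Real.log (D : ℝ) * (PP i).H := mul_nonneg hlT hH0
  have hc2 : 0 ≤ Real.log (D : ℝ) * Fintype.card (PP i).V := mul_nonneg hlT hV0
  have hexp : (2 * Real.log (D : ℝ) + 1) *
      (Fintype.card (PP i).V + (PP i).H + 1) =
      Fintype.card (PP i).V * Real.log (D : ℝ) + Real.log (D : ℝ) * Fintype.card (PP i).V +
      (PP i).H * Real.log (D : ℝ) + Real.log (D : ℝ) * (PP i).H + 2 * Real.log (D : ℝ) +
      Fintype.card (PP i).V + (PP i).H + 1 := by ring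
  rw [hexp]
  have hexp2 : ((Fintype.card (PP i).E : ℝ) - Fintype.card (PP i).V - Fintype.card (PP i).R) *
      Real.log (Fintype.card S.C) =
      Fintype.card (PP i).E * Real.log (Fintype.card S.C) -
      Fintype.card (PP i).V * Real.log (Fintype.card S.C) -
      Fintype.card (PP i).R * Real.log (Fintype.card S.C) := by ring
  rw [hexp2]
  rw [mul_add] at hVb
  linarith

end Vale.Agent.P201.S
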